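import Vale.Agent.P264Z.G.Final
import Vale.Agent.P264Z.S.Main
import Vale.Agent.P264Z.F.All
import Vale.Agent.P264Z.A.Shoot
import Vale.Agent.P264Z.E.LinA
import Vale.Agent.P264Z.E.Cont
import Vale.Agent.P264Z.E.Fin

/-!
# P264: the Calabi flow can have a finite time singularity

There is a compact connected complex manifold `X` of dimension `10` (projective space) with a
smooth Kähler form `w`, in a class which contains a metric of constant scalar curvature, such that
the Calabi flow from `w` has no smooth solution on `[0,T)` for any `T > 1`, and none on `[0,∞)`.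
-/

open scoped Manifold ContDiff
open Set Vale.Agent.P272.K Vale.Agent.P264Z

theorem Vale.Agent.Results.P264.Blowup.result :
    ∃ (X : Type) (_ : TopologicalSpace X) (_ : T2Space X) (_ : CompactSpace X)
      (_ : ConnectedSpace X) (_ : ChartedSpace (Cm 10) X) (_ : IsManifold 𝓘(ℂ, Cm 10) ω X)
      (w : Chart 10 X → Cm 10 → Matrix (Fin 10) (Fin 10) ℂ), IsKahler w ∧ ClassHasCscK w ∧
      (∃ s, IsAverageScal w s) ∧ (∀ s, ∀ T > 1, ¬∃ φ, IsCalabiFlow w s (Ico 0 T) φ) ∧
      ∀ s, ¬∃ φ, IsCalabiFlow w s (Ici 0) φ := by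
  obtain ⟨σ, hσ⟩ := exists_shrinker
  exact final (noGlobal_of fall shooting (lin_ineq fall) (contCut fall) hσ)
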